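import Mathlib

/-! Isometries of unit balls are linear. -/

namespace Vale.Agent.P084.FD

open Metric Set
open scoped Pointwise

variable {X : Type*} [NormedAddCommGroup X] [NormedSpace ℝ X]

/-- A self map of the ball which does not increase distances and fixes the sphere is the identity. -/
theorem eq_self_of_fix_sphere {ρ : X → X}
    (hρ : ∀ a ∈ closedBall (0 : X) 1, ∀ b ∈ closedBall (0 : X) 1, ‖ρ a - ρ b‖ ≤ ‖a - b‖)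
    (hfix : ∀ x, ‖x‖ = 1 → ρ x = x) {z : X} (hz : ‖z‖ ≤ 1) : ρ z = z := by
  by_contra hne
  set w := z - ρ z with hw
  have hw0 : 0 < ‖w‖ := norm_pos_iff.2 (sub_ne_zero.2 (Ne.symm hne))
  have hc : Continuous fun t : ℝ => ‖z + t • w‖ := by fun_prop
  have hb : 1 ≤ ‖z + (2 / ‖w‖) • w‖ := by
    have h1 : ‖(2 / ‖w‖) • w‖ = 2 := by
      rw [norm_smul, Real.norm_of_nonneg (by positivity)]
      field_simp
    have := norm_sub_le (z + (2 / ‖w‖) • w) z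
    rw [add_sub_cancel_left, h1] at this
    linarith
  obtain ⟨t, ⟨ht0, -⟩, ht : ‖z + t • w‖ = 1⟩ :=
    intermediate_value_Icc (by positivity : (0 : ℝ) ≤ 2 / ‖w‖) hc.continuousOn
      (show (1 : ℝ) ∈ Icc ‖z + (0 : ℝ) • w‖ ‖z + (2 / ‖w‖) • w‖ from ⟨by simpa using hz, hb⟩)
  have h := hρ (z + t • w) (by simp [ht]) z (by simpa using hz)
  rw [hfix _ ht, add_sub_cancel_left, show z + t • w - ρ z = (1 + t) • w by rw [hw]; module,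
    norm_smul, norm_smul, Real.norm_of_nonneg ht0, Real.norm_of_nonneg (by linarith)] at h
  nlinarith

variable {Y : Type*} [NormedAddCommGroup Y] [NormedSpace ℝ Y]

/-- Mutually inverse distance preserving maps of the balls. -/
structure BallIso (X Y : Type*) [NormedAddCommGroup X] [NormedSpace ℝ X] [NormedAddCommGroup Y]
    [NormedSpace ℝ Y] where
  φ : X → Y
  ψ : Y → X
  mem : ∀ x, ‖x‖ ≤ 1 → ‖φ x‖ = ‖x‖
  mem' : ∀ y, ‖y‖ ≤ 1 → ‖ψ y‖ = ‖y‖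
  dist_φ : ∀ a b, ‖a‖ ≤ 1 → ‖b‖ ≤ 1 → ‖φ a - φ b‖ = ‖a - b‖
  dist_ψ : ∀ a b, ‖a‖ ≤ 1 → ‖b‖ ≤ 1 → ‖ψ a - ψ b‖ = ‖a - b‖
  left_inv : ∀ x, ‖x‖ ≤ 1 → ψ (φ x) = x
  right_inv : ∀ y, ‖y‖ ≤ 1 → φ (ψ y) = y

namespace BallIso

variable (I : BallIso X Y)

/-- The inverse. -/
def symm : BallIso Y X := ⟨I.ψ, I.φ, I.mem', I.mem, I.dist_ψ, I.dist_φ, I.right_inv, I.left_inv⟩

theorem φ_zero : I.φ 0 = 0 := norm_eq_zero.1 (by rw [I.mem 0 (by simp), norm_zero])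

/-- Isometries of a bounded lens fix its centre. -/
theorem center_fixed {z : X} {g : X → X} (hg : ∀ a, ‖a‖ ≤ ‖z‖ ∧ ‖a - z‖ ≤ ‖z‖ → ‖g a‖ ≤ ‖z‖ ∧ ‖g a - z‖ ≤ ‖z‖)
    (hgd : ∀ a b, ‖a‖ ≤ ‖z‖ ∧ ‖a - z‖ ≤ ‖z‖ → ‖b‖ ≤ ‖z‖ ∧ ‖b - z‖ ≤ ‖z‖ → ‖g a - g b‖ = ‖a - b‖)
    (hgs : ∀ a, ‖a‖ ≤ ‖z‖ ∧ ‖a - z‖ ≤ ‖z‖ → ∃ b, (‖b‖ ≤ ‖z‖ ∧ ‖b - z‖ ≤ ‖z‖) ∧ g b = a)
    (h0 : g 0 = 0) (hz : g z = z) : g ((2 : ℝ)⁻¹ • z) = (2 : ℝ)⁻¹ • z := by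
  let K : Set X := {a | ‖a‖ ≤ ‖z‖ ∧ ‖a - z‖ ≤ ‖z‖}
  let m : X := (2 : ℝ)⁻¹ • z
  have hm : m ∈ K := by
    have h1 : m - z = -m := by simp only [m]; module
    have h2 : ‖m‖ ≤ ‖z‖ := by
      simp only [m, norm_smul]; norm_num; linarith [norm_nonneg z]
    exact ⟨h2, by rw [h1, norm_neg]; exact h2⟩
  let ρ : X → X := fun a => z - a
  have hρ : ∀ a ∈ K, ρ a ∈ K := fun a ha =>
    ⟨by simpa [ρ, norm_sub_rev] using ha.2, by simpa [ρ] using ha.1⟩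
  -- the largest displacement of the centre
  let S : Set ℝ := {r | ∃ g : X → X, (MapsTo g K K) ∧ (∀ a ∈ K, ∀ b ∈ K, ‖g a - g b‖ = ‖a - b‖) ∧
    (SurjOn g K K) ∧ g 0 = 0 ∧ g z = z ∧ ‖g m - m‖ = r}
  have hbdd : BddAbove S := by
    refine ⟨2 * ‖z‖, ?_⟩
    rintro r ⟨g, hgK, -, -, -, -, rfl⟩
    exact (norm_sub_le _ _).trans (by linarith [(hgK hm).1, hm.1])
  have hdouble : ∀ r ∈ S, 2 * r ∈ S := by
    rintro r ⟨g, hgK, hgd, hgs, hg0, hgz, rfl⟩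
    have hinj : InjOn g K := fun a ha b hb h => by
      have := hgd a ha b hb
      rw [h, sub_self, norm_zero] at this
      exact sub_eq_zero.1 (norm_eq_zero.1 this.symm)
    have hK0 : (0 : X) ∈ K := ⟨by simp, by simp⟩
    have hKz : z ∈ K := ⟨le_rfl, by simp⟩
    let gi := Function.invFunOn g K
    have hgi : ∀ a ∈ K, gi a ∈ K ∧ g (gi a) = a := fun a ha => Function.invFunOn_pos (hgs ha)
    have hgig : ∀ a ∈ K, gi (g a) = a := fun a ha =>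
      hinj (hgi _ (hgK ha)).1 ha (hgi _ (hgK ha)).2
    have hgid : ∀ a ∈ K, ∀ b ∈ K, ‖gi a - gi b‖ = ‖a - b‖ := fun a ha b hb => by
      rw [← hgd _ (hgi a ha).1 _ (hgi b hb).1, (hgi a ha).2, (hgi b hb).2]
    have hρd : ∀ a b, ‖ρ a - ρ b‖ = ‖a - b‖ := fun a b => by
      rw [show ρ a - ρ b = b - a by simp only [ρ]; abel, norm_sub_rev]
    have hρρ : ∀ a, ρ (ρ a) = a := fun a => by simp [ρ]
    refine ⟨fun a => ρ (gi (ρ (g a))), fun a ha => hρ _ (hgi _ (hρ _ (hgK ha))).1,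
      fun a ha b hb => by rw [hρd, hgid _ (hρ _ (hgK ha)) _ (hρ _ (hgK hb)), hρd, hgd a ha b hb],
      fun a ha => ?_, ?_, ?_, ?_⟩
    · refine ⟨gi (ρ (g (ρ a))), (hgi _ (hρ _ (hgK (hρ a ha)))).1, ?_⟩
      simp only
      rw [(hgi _ (hρ _ (hgK (hρ a ha)))).2, hρρ, hgig _ (hρ a ha), hρρ]
    · simp only [hg0, ρ, sub_zero]
      have : gi z = z := by
        have := hgig z hKz
        rwa [hgz] at this
      rw [this, sub_self]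
    · simp only [hgz, ρ, sub_self]
      have : gi 0 = 0 := by
        have := hgig 0 hK0
        rwa [hg0] at this
      rw [this, sub_zero]
    · have hρm : ρ m = m := by simp only [ρ, m]; module
      simp only
      nth_rw 2 [← hρm]
      rw [hρd, ← hgig m hm, hgid _ (hρ _ (hgK (hgi (g m) (hgK hm)).1)) _ (hgK hm), hgig m hm]
      rw [show ρ (g m) - g m = (2 : ℝ) • (m - g m) by simp only [ρ, m]; module, norm_smul,
        Real.norm_of_nonneg two_pos.le, norm_sub_rev]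
  have hmem : ‖g m - m‖ ∈ S :=
    ⟨g, fun a ha => hg a ha, fun a ha b hb => hgd a b ha hb, fun a ha => hgs a ha, h0, hz, rfl⟩
  have hle : ∀ r ∈ S, r ≤ sSup S / 2 := fun r hr => by linarith [le_csSup hbdd (hdouble r hr)]
  have hsup : sSup S ≤ 0 := by linarith [csSup_le ⟨_, hmem⟩ hle]
  have := le_csSup hbdd hmem
  exact sub_eq_zero.1 (norm_eq_zero.1 (le_antisymm (this.trans hsup) (norm_nonneg _)))

theorem φ_half {z : X} (hz : ‖z‖ ≤ 1) : I.φ ((2 : ℝ)⁻¹ • z) = (2 : ℝ)⁻¹ • I.φ z := by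
  set z' := I.φ z with hz'
  have hn : ‖z'‖ = ‖z‖ := I.mem z hz
  have hb : ∀ a : X, ‖a‖ ≤ ‖z‖ → ‖a‖ ≤ 1 := fun a h => h.trans hz
  have hb' : ∀ a : Y, ‖a‖ ≤ ‖z‖ → ‖a‖ ≤ 1 := fun a h => h.trans hz
  have hf : ∀ a, ‖a‖ ≤ ‖z‖ ∧ ‖a - z‖ ≤ ‖z‖ → ‖I.φ a‖ ≤ ‖z‖ ∧ ‖I.φ a - z'‖ ≤ ‖z‖ := fun a ha =>
    ⟨(I.mem a (hb a ha.1)).le.trans ha.1, (I.dist_φ a z (hb a ha.1) hz).le.trans ha.2⟩
  have hψz : I.ψ z' = z := I.left_inv z hz
  have hi : ∀ a, ‖a‖ ≤ ‖z‖ ∧ ‖a - z'‖ ≤ ‖z‖ → ‖I.ψ a‖ ≤ ‖z‖ ∧ ‖I.ψ a - z‖ ≤ ‖z‖ := fun a ha =>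
    ⟨(I.mem' a (hb' a ha.1)).le.trans ha.1, by
      rw [← hψz, I.dist_ψ a z' (hb' a ha.1) (hn.le.trans hz)]; exact hψz.symm ▸ ha.2⟩
  have hρ' : ∀ a, ‖a‖ ≤ ‖z‖ ∧ ‖a - z'‖ ≤ ‖z‖ →
      ‖z' - a‖ ≤ ‖z‖ ∧ ‖z' - a - z'‖ ≤ ‖z‖ := fun a ha =>
    ⟨by rw [norm_sub_rev]; exact ha.2, by simpa using ha.1⟩
  have hρ : ∀ a, ‖a‖ ≤ ‖z‖ ∧ ‖a - z‖ ≤ ‖z‖ →
      ‖z - a‖ ≤ ‖z‖ ∧ ‖z - a - z‖ ≤ ‖z‖ := fun a ha =>
    ⟨by rw [norm_sub_rev]; exact ha.2, by simpa using ha.1⟩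
  let g : X → X := fun a => z - I.ψ (z' - I.φ a)
  have hfix : g ((2 : ℝ)⁻¹ • z) = (2 : ℝ)⁻¹ • z := by
    refine center_fixed (fun a ha => hρ _ (hi _ (hρ' _ (hf a ha)))) ?_ ?_ ?_ ?_
    · intro a b ha hb2
      simp only [g]
      rw [show z - I.ψ (z' - I.φ a) - (z - I.ψ (z' - I.φ b)) =
          I.ψ (z' - I.φ b) - I.ψ (z' - I.φ a) by abel,
        I.dist_ψ _ _ (hb' _ (hρ' _ (hf b hb2)).1) (hb' _ (hρ' _ (hf a ha)).1),
        show z' - I.φ b - (z' - I.φ a) = I.φ a - I.φ b by abel,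
        I.dist_φ a b (hb a ha.1) (hb b hb2.1)]
    · intro a ha
      refine ⟨I.ψ (z' - I.φ (z - a)), hi _ (hρ' _ (hf _ (hρ a ha))), ?_⟩
      simp only [g]
      rw [I.right_inv _ (hb' _ (hρ' _ (hf _ (hρ a ha))).1), sub_sub_cancel,
        I.left_inv _ (hb _ (hρ a ha).1), sub_sub_cancel]
    · simp only [g, I.φ_zero, sub_zero, hψz, sub_self]
    · simp only [g, ← hz', sub_self]
      rw [show I.ψ 0 = 0 from I.symm.φ_zero, sub_zero]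
  simp only [g] at hfix
  have hm : ‖(2 : ℝ)⁻¹ • z‖ ≤ ‖z‖ ∧ ‖(2 : ℝ)⁻¹ • z - z‖ ≤ ‖z‖ := by
    have h1 : (2 : ℝ)⁻¹ • z - z = -((2 : ℝ)⁻¹ • z) := by module
    rw [h1, norm_neg, and_self, norm_smul]
    norm_num
    linarith [norm_nonneg z]
  have h1 : I.ψ (z' - I.φ ((2 : ℝ)⁻¹ • z)) = (2 : ℝ)⁻¹ • z := by
    rw [sub_eq_iff_eq_add'] at hfix
    linear_combination (norm := module) (-1 : ℝ) • hfix
  have h2 := congrArg I.φ h1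
  rw [I.right_inv _ (hb' _ (hρ' _ (hf _ hm)).1)] at h2
  linear_combination (norm := module) (-(2 : ℝ)⁻¹) • h2

theorem φ_scale {z : X} (hz : ‖z‖ ≤ 1) :
    ∀ n : ℕ, I.φ (((2 : ℝ)⁻¹) ^ n • z) = ((2 : ℝ)⁻¹) ^ n • I.φ z
  | 0 => by simp
  | n + 1 => by
    have h : ‖((2 : ℝ)⁻¹) ^ n • z‖ ≤ 1 := by
      rw [norm_smul, Real.norm_of_nonneg (by positivity)]
      exact mul_le_one₀ (pow_le_one₀ (by norm_num) (by norm_num)) (norm_nonneg z) hz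
    rw [pow_succ', mul_smul, I.φ_half h, φ_scale hz n, smul_smul]

/-- The scale used for global extension. -/
noncomputable def scl (x : X) : ℕ := ⌈‖x‖⌉₊

theorem norm_scl_le {x : X} {n : ℕ} (hn : scl x ≤ n) : ‖((2 : ℝ)⁻¹) ^ n • x‖ ≤ 1 := by
  rw [norm_smul, Real.norm_of_nonneg (by positivity), inv_pow, inv_mul_le_one₀ (by positivity)]
  calc ‖x‖ ≤ (scl x : ℝ) := Nat.le_ceil _
    _ ≤ (n : ℝ) := by exact_mod_cast hn
    _ ≤ (2 : ℝ) ^ n := by exact_mod_cast (Nat.lt_two_pow_self).le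

/-- The extension to the whole space. -/
noncomputable def gext (x : X) : Y := (2 : ℝ) ^ scl x • I.φ (((2 : ℝ)⁻¹) ^ scl x • x)

theorem gext_eq {x : X} {n : ℕ} (hn : scl x ≤ n) :
    I.gext x = (2 : ℝ) ^ n • I.φ (((2 : ℝ)⁻¹) ^ n • x) := by
  obtain ⟨k, rfl⟩ := Nat.exists_eq_add_of_le hn
  rw [gext, add_comm (scl x) k, pow_add, pow_add, mul_smul, mul_smul,
    I.φ_scale (norm_scl_le le_rfl) k, smul_comm ((2 : ℝ) ^ scl x) (((2 : ℝ)⁻¹) ^ k), smul_smul,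
    ← mul_pow, mul_inv_cancel₀ (two_ne_zero (α := ℝ)), one_pow, one_smul]

theorem gext_isometry : Isometry I.gext := by
  refine Isometry.of_dist_eq fun x y => ?_
  rw [dist_eq_norm, dist_eq_norm, I.gext_eq (le_max_left (scl x) (scl y)),
    I.gext_eq (le_max_right (scl x) (scl y)), ← smul_sub, norm_smul,
    I.dist_φ _ _ (norm_scl_le (le_max_left _ _)) (norm_scl_le (le_max_right _ _)), ← norm_smul,
    ← smul_sub, smul_smul, ← mul_pow]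
  norm_num

theorem gext_surjective : Function.Surjective I.gext := by
  intro y
  refine ⟨(2 : ℝ) ^ scl y • I.ψ (((2 : ℝ)⁻¹) ^ scl y • y), ?_⟩
  set n := scl y
  set x := (2 : ℝ) ^ n • I.ψ (((2 : ℝ)⁻¹) ^ n • y)
  have hy : ‖((2 : ℝ)⁻¹) ^ n • y‖ ≤ 1 := norm_scl_le le_rfl
  have hx : ((2 : ℝ)⁻¹) ^ n • x = I.ψ (((2 : ℝ)⁻¹) ^ n • y) := by
    simp only [x, smul_smul, inv_pow]
    rw [inv_mul_cancel₀ (by positivity), one_smul]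
  set N := max (scl x) n
  obtain ⟨k, hk⟩ := Nat.exists_eq_add_of_le (le_max_right (scl x) n)
  rw [I.gext_eq (le_max_left (scl x) n), hk, add_comm n k, pow_add, pow_add, mul_smul, mul_smul,
    hx, I.φ_scale ((I.mem' _ hy).le.trans hy) k, I.right_inv _ hy,
    smul_comm ((2 : ℝ) ^ n) (((2 : ℝ)⁻¹) ^ k), smul_smul, smul_smul ((2 : ℝ) ^ n), inv_pow,
    inv_pow, mul_inv_cancel₀ (by positivity : (2 : ℝ) ^ k ≠ 0),
    mul_inv_cancel₀ (by positivity : (2 : ℝ) ^ n ≠ 0), one_smul, one_smul]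

theorem gext_of_norm_le {x : X} (hx : ‖x‖ ≤ 1) : I.gext x = I.φ x := by
  rw [I.gext_eq (n := scl x) le_rfl, I.φ_scale hx, smul_smul, inv_pow,
    mul_inv_cancel₀ (by positivity), one_smul]

/-- An isometry of unit balls is the restriction of a linear isometry. -/
theorem exists_linear : ∃ T : X ≃ₗᵢ[ℝ] Y, ∀ x, ‖x‖ ≤ 1 → T x = I.φ x := by
  let e : X ≃ᵢ Y := ⟨Equiv.ofBijective I.gext ⟨I.gext_isometry.injective, I.gext_surjective⟩,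
    I.gext_isometry⟩
  have h0 : e 0 = 0 := (I.gext_of_norm_le (by simp)).trans I.φ_zero
  refine ⟨e.toRealLinearIsometryEquivOfMapZero h0, fun x hx => ?_⟩
  exact I.gext_of_norm_le hx

end BallIso

end Vale.Agent.P084.FD
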