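import Mathlib
import Vale.Agent.P228.Deg.Deg

/-! Analytic tools: covering by boundary data, an area inequality for Lipschitz maps and the
passage from a derivative bound almost everywhere to a Lipschitz bound. -/

namespace Vale.Agent.P084.FD

open Metric Set MeasureTheory Filter Topology
open scoped NNReal ENNReal

variable {X : Type*} [NormedAddCommGroup X] [NormedSpace ℝ X] [FiniteDimensional ℝ X]

/-- A continuous map which is the identity on the frontier of a bounded open set covers it. -/
theorem exists_preimage_of_eq_id_frontier [Nontrivial X] {Ω : Set X} (hΩ : IsOpen Ω)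
    (hΩb : Bornology.IsBounded Ω) {g : X → X} (hg : Continuous g)
    (hid : ∀ x ∈ frontier Ω, g x = x) {q : X} (hq : q ∈ Ω) : ∃ x ∈ closure Ω, g x = q := by
  by_contra! h
  have h0 := P228.degree_eq_zero hΩ hΩb hg h
  have h1 : P228.degree g Ω q = P228.degree (id : X → X) Ω q := by
    refine P228.degree_congr hΩ hΩb hg continuous_id fun x hx s _ => ?_
    rw [hid x hx, id_eq, ← add_smul, sub_add_cancel, one_smul]
    intro hxq
    have := hx.2
    rw [hΩ.interior_eq, hxq] at this
    exact this hq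
  rw [h0, P228.degree_id hΩ hΩb hq] at h1
  exact zero_ne_one h1

/-- The area inequality for Lipschitz maps. -/
theorem volume_image_le {ι : Type*} [Fintype ι] {g : (ι → ℝ) → (ι → ℝ)} {K : ℝ≥0}
    (hg : LipschitzWith K g) {s : Set (ι → ℝ)} (hs : MeasurableSet s) :
    volume (g '' s) ≤ ∫⁻ x in s, ENNReal.ofReal |(fderiv ℝ g x).det| := by
  let D : Set (ι → ℝ) := {x | DifferentiableAt ℝ g x}
  have hD : MeasurableSet D := measurableSet_of_differentiableAt ℝ g
  have hN : volume (Dᶜ : Set (ι → ℝ)) = 0 := by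
    simpa [ae_iff, D, compl_setOf] using (hg.ae_differentiableAt (μ := volume))
  have h0 : volume (g '' (s \ D)) = 0 := by
    refine le_antisymm ?_ bot_le
    have h := hg.hausdorffMeasure_image_le (d := (Fintype.card ι : ℝ)) (by positivity) (s \ D)
    rw [hausdorffMeasure_pi_real] at h
    refine h.trans (le_of_eq ?_)
    rw [measure_mono_null (fun x hx => hx.2) hN, mul_zero]
  calc volume (g '' s) ≤ volume (g '' (s ∩ D)) + volume (g '' (s \ D)) := by
        refine (measure_mono ?_).trans (measure_union_le _ _)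
        rw [← image_union, inter_union_sdiff]
    _ = volume (g '' (s ∩ D)) := by rw [h0, add_zero]
    _ ≤ ∫⁻ x in s ∩ D, ENNReal.ofReal |(fderiv ℝ g x).det| :=
        addHaar_image_le_lintegral_abs_det_fderiv volume (hs.inter hD)
          fun x hx => hx.2.hasFDerivAt.hasFDerivWithinAt
    _ ≤ _ := lintegral_mono_set inter_subset_left

variable {Y : Type*} [NormedAddCommGroup Y] [NormedSpace ℝ Y] [FiniteDimensional ℝ Y]

/-- A Lipschitz map whose derivative has norm at most one almost everywhere on a convex open set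
is `1`-Lipschitz there. -/
theorem norm_sub_le_of_ae_fderiv [MeasurableSpace X] [BorelSpace X] (μ : Measure X)
    [μ.IsAddHaarMeasure] {G : X → Y} {K : ℝ≥0} (hG : LipschitzWith K G) {U : Set X}
    (hU : IsOpen U) (hUc : Convex ℝ U) (h : ∀ᵐ z ∂μ, z ∈ U → ‖fderiv ℝ G z‖ ≤ 1)
    {x y : X} (hx : x ∈ U) (hy : y ∈ U) : ‖G x - G y‖ ≤ ‖x - y‖ := by
  let Good : Set X := {z | z ∈ U → DifferentiableAt ℝ G z ∧ ‖fderiv ℝ G z‖ ≤ 1}
  have hGood : ∀ᵐ z ∂μ, z ∈ Good := by
    filter_upwards [h, hG.ae_differentiableAt (μ := μ)] with z h1 h2 h3 using ⟨h2, h1 h3⟩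
  obtain ⟨N, hN, hNm, hN0⟩ := exists_measurable_superset_of_null (ae_iff.1 hGood)
  have hmeas : MeasurableSet {p : ℝ × X | p.2 + (x + p.1 • (y - x)) ∉ N} := by
    refine (hNm.preimage ?_).compl
    exact (continuous_snd.add (continuous_const.add
      (continuous_fst.smul continuous_const))).measurable
  have h1 : ∀ᵐ t ∂(volume : Measure ℝ), ∀ᵐ v ∂μ, v + (x + t • (y - x)) ∉ N := by
    refine ae_of_all _ fun t => ?_
    rw [ae_iff]
    simp only [not_not]
    show μ ((fun v => v + (x + t • (y - x))) ⁻¹' N) = 0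
    rw [measure_preimage_add_right, hN0]
  have h2 := (Measure.ae_ae_comm (p := fun t v => v + (x + t • (y - x)) ∉ N) hmeas).1 h1
  have hclose : ∀ v, (∀ᵐ t ∂(volume : Measure ℝ), v + (x + t • (y - x)) ∉ N) →
      v + x ∈ U → v + y ∈ U → ‖G (v + y) - G (v + x)‖ ≤ ‖x - y‖ := by
    intro v hv hvx hvy
    obtain ⟨q, hq1, hq2⟩ := exists_dual_vector'' ℝ (G (v + y) - G (v + x))
    let φ : ℝ → ℝ := fun t => q (G (v + (x + t • (y - x))))
    have hline : LipschitzWith ‖y - x‖₊ fun t : ℝ => v + (x + t • (y - x)) :=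
      LipschitzWith.of_dist_le_mul fun a b => by
        rw [dist_eq_norm, dist_eq_norm, coe_nnnorm,
          show v + (x + a • (y - x)) - (v + (x + b • (y - x))) = (a - b) • (y - x) by module,
          norm_smul, mul_comm]
    have hφ : LipschitzWith (‖q‖₊ * (K * ‖y - x‖₊)) φ := q.lipschitz.comp (hG.comp hline)
    have hac := hφ.lipschitzOnWith.absolutelyContinuousOnInterval (a := (0 : ℝ)) (b := 1)
    have hint := hac.integral_deriv_eq_sub
    have hval : φ 1 - φ 0 = ‖G (v + y) - G (v + x)‖ := by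
      rw [RCLike.ofReal_real_eq_id, id_eq] at hq2
      simp [φ, ← hq2]
    rw [hval] at hint
    rw [← hint]
    refine (Real.le_norm_self _).trans ?_
    have hb : ∀ᵐ t ∂(volume : Measure ℝ), t ∈ Set.uIoc (0 : ℝ) 1 → ‖deriv φ t‖ ≤ ‖x - y‖ := by
      filter_upwards [hv] with t ht htI
      rw [uIoc_of_le zero_le_one] at htI
      have hmem : v + (x + t • (y - x)) ∈ U := by
        have := hUc.add_smul_sub_mem hvx hvy (Ioc_subset_Icc_self htI)
        convert this using 1
        module
      have hgd : v + (x + t • (y - x)) ∈ Good := by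
        by_contra hcon
        exact ht (hN hcon)
      obtain ⟨hd, hn⟩ := hgd hmem
      have hl : HasDerivAt (fun t : ℝ => v + (x + t • (y - x))) (y - x) t := by
        simpa using (((hasDerivAt_id t).smul_const (y - x)).const_add x).const_add v
      have := (q.hasFDerivAt.comp_hasDerivAt t (hd.hasFDerivAt.comp_hasDerivAt t hl))
      rw [show deriv φ t = q (fderiv ℝ G (v + (x + t • (y - x))) (y - x)) from this.deriv]
      calc _ ≤ ‖q‖ * ‖fderiv ℝ G (v + (x + t • (y - x))) (y - x)‖ := q.le_opNorm _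
        _ ≤ 1 * (1 * ‖y - x‖) := by
          refine mul_le_mul hq1 ?_ (norm_nonneg _) zero_le_one
          exact ((fderiv ℝ G _).le_opNorm _).trans (mul_le_mul_of_nonneg_right hn (norm_nonneg _))
        _ = ‖x - y‖ := by rw [one_mul, one_mul, norm_sub_rev]
    have := intervalIntegral.norm_integral_le_of_norm_le_const_ae hb
    simpa using this
  have hnhds : {v : X | v + x ∈ U ∧ v + y ∈ U} ∈ 𝓝 (0 : X) :=
    ((hU.preimage (continuous_add_const x)).inter (hU.preimage (continuous_add_const y))).mem_nhds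
      (by simp [hx, hy])
  obtain ⟨W, hWsub, hW, h0W⟩ := _root_.mem_nhds_iff.1 hnhds
  have hdense : Dense {v : X | ∀ᵐ t ∂(volume : Measure ℝ), v + (x + t • (y - x)) ∉ N} :=
    Measure.dense_of_ae h2
  have h0 : (0 : X) ∈ closure (W ∩ {v | ∀ᵐ t ∂(volume : Measure ℝ), v + (x + t • (y - x)) ∉ N}) :=
    hdense.open_subset_closure_inter hW h0W
  have hcl : IsClosed {v : X | ‖G (v + y) - G (v + x)‖ ≤ ‖x - y‖} :=
    isClosed_le (by have := hG.continuous; fun_prop) continuous_const
  have hz := (closure_minimal (fun v hv => hclose v hv.2 (hWsub hv.1).1 (hWsub hv.1).2) hcl) h0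
  have hz' : ‖G (0 + y) - G (0 + x)‖ ≤ ‖x - y‖ := hz
  rwa [zero_add, zero_add, norm_sub_rev] at hz'

end Vale.Agent.P084.FD
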