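import Vale.Agent.P084.FD.Transfer

/-! A sphere isometry of finite-dimensional spaces extends to a `1`-Lipschitz map of the balls. -/

namespace Vale.Agent.P084.FD

open Metric Set MeasureTheory Filter Topology
open scoped NNReal ENNReal

variable {ι : Type*} [Fintype ι] [Nonempty ι]
variable {E F : Type*} [NormedAddCommGroup E] [NormedSpace ℝ E] [FiniteDimensional ℝ E]
  [NormedAddCommGroup F] [NormedSpace ℝ F] [FiniteDimensional ℝ F]

theorem exists_test_functional (v : ι → ℝ) :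
    ∃ l : StrongDual ℝ (ι → ℝ), v ≠ 0 → l v = 1 := by
  rcases eq_or_ne v 0 with rfl | hv
  · exact ⟨0, fun h => absurd rfl h⟩
  obtain ⟨g, -, hg⟩ := exists_dual_vector ℝ v (norm_ne_zero_iff.2 hv)
  refine ⟨‖v‖⁻¹ • g, fun _ => ?_⟩
  simp [hg, inv_mul_cancel₀ (norm_ne_zero_iff.2 hv)]

/-- The linear algebra at the end: equal test values at a dense set give an isometry. -/
theorem norm_symm_eq (e : (ι → ℝ) ≃L[ℝ] E) (e' : (ι → ℝ) ≃L[ℝ] F) {u : ℕ → ι → ℝ}
    {l : ℕ → StrongDual ℝ (ι → ℝ)} (hu : DenseRange u) (hl : ∀ k, u k ≠ 0 → l k (u k) = 1)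
    (Ae : E ≃L[ℝ] (ι → ℝ)) (Le : F ≃L[ℝ] (ι → ℝ))
    (hjac : jac e (Ae : E →L[ℝ] (ι → ℝ)) = jac e' (Le : F →L[ℝ] (ι → ℝ)))
    (hpos : 0 < jac e (Ae : E →L[ℝ] (ι → ℝ)))
    (hgam : ∀ k, gam e (u k) (l k) (Ae : E →L[ℝ] (ι → ℝ)) =
      gam e' (u k) (l k) (Le : F →L[ℝ] (ι → ℝ))) (y : F) : ‖Ae.symm (Le y)‖ = ‖y‖ := by
  have h : (fun v => ‖Ae.symm v‖) = fun v => ‖Le.symm v‖ := by
    refine hu.equalizer Ae.symm.continuous.norm Le.symm.continuous.norm (funext fun k => ?_)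
    simp only [Function.comp]
    rcases eq_or_ne (u k) 0 with h0 | h0
    · rw [h0, map_zero, map_zero, norm_zero, norm_zero]
    have h := hgam k
    rw [gam_eq_norm e (hl k h0) Ae.injective (x := Ae.symm (u k)) (Ae.apply_symm_apply _),
      gam_eq_norm e' (hl k h0) Le.injective (x := Le.symm (u k)) (Le.apply_symm_apply _),
      ← hjac] at h
    exact mul_right_cancel₀ hpos.ne' h
  have := congrFun h (Le y)
  simpa using this

/-- A `1`-Lipschitz extension of the inverse map to the closed ball. -/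
theorem exists_lipschitz_extension (e : (ι → ℝ) ≃L[ℝ] E) (e' : (ι → ℝ) ≃L[ℝ] F) (I : SIso E F) :
    ∃ G : F → E, Continuous G ∧ (∀ a ∈ closedBall (0 : F) 1, ∀ b ∈ closedBall (0 : F) 1,
      ‖G a - G b‖ ≤ ‖a - b‖) ∧ ∀ y, ‖y‖ = 1 → G y = I.S y := by
  obtain ⟨u, hu⟩ := TopologicalSpace.exists_dense_seq (ι → ℝ)
  choose l hl using fun k => exists_test_functional (u k)
  obtain ⟨A, hA⟩ := exists_mem_all e u l
  obtain ⟨A', hA'⟩ := exists_mem_all e' u l
  have hpos := jac_pos_of_mem e u l (hA 0)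
  have hinj := injective_of_jac_pos e hpos
  have hr : Module.finrank ℝ E = Module.finrank ℝ (ι → ℝ) :=
    e.symm.toLinearEquiv.finrank_eq
  have hr' : Module.finrank ℝ F = Module.finrank ℝ (ι → ℝ) :=
    e'.symm.toLinearEquiv.finrank_eq
  let Ae : E ≃L[ℝ] (ι → ℝ) :=
    (LinearEquiv.ofBijective A.toLinearMap
      ⟨hinj, (LinearMap.injective_iff_surjective_of_finrank_eq_finrank hr).1 hinj⟩)
        |>.toContinuousLinearEquiv
  have hAe : (Ae : E →L[ℝ] (ι → ℝ)) = A := ContinuousLinearMap.ext fun y => rfl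
  obtain ⟨G, hG, hb⟩ := exists_extension (hA 0).1 I
  let G₀ : F → E := fun y => Ae.symm (G y)
  have hG₀ : LipschitzWith (‖(Ae.symm : (ι → ℝ) →L[ℝ] E)‖₊ * 1) G₀ :=
    (Ae.symm : (ι → ℝ) →L[ℝ] E).lipschitz.comp hG
  have hmem : ∀ᵐ z ∂pm e', ∀ k, fderiv ℝ G (e' z) ∈ maxSet e' u l k :=
    ae_all_iff.2 fun k => (transfer_both e e' u l I k).1 A (hA k) G hG hb
  have hjac : ∀ {L : F →L[ℝ] (ι → ℝ)}, L ∈ maxSet e' u l 0 → jac e A = jac e' L := fun hL =>
    le_antisymm (jac_le_of_mem e e' u l I (hA 0) hL) (jac_le_of_mem e' e u l I.symm hL (hA 0))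
  have hiso : ∀ᵐ z ∂pm e', ‖fderiv ℝ G₀ (e' z)‖ ≤ 1 := by
    filter_upwards [hmem, ae_pm_of_ae e' (ae_differentiableAt_comp e' hG)] with z hz hd
    set L := fderiv ℝ G (e' z) with hLdef
    have hLinj : Function.Injective L :=
      injective_of_jac_pos e' (by rw [← hjac (hz 0)]; exact hpos)
    let Le : F ≃L[ℝ] (ι → ℝ) :=
      (LinearEquiv.ofBijective L.toLinearMap
        ⟨hLinj, (LinearMap.injective_iff_surjective_of_finrank_eq_finrank hr').1 hLinj⟩)
          |>.toContinuousLinearEquiv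
    have hLe : (Le : F →L[ℝ] (ι → ℝ)) = L := ContinuousLinearMap.ext fun y => rfl
    have hfd : fderiv ℝ G₀ (e' z) = (Ae.symm : (ι → ℝ) →L[ℝ] E).comp L :=
      (Ae.symm.toContinuousLinearMap.hasFDerivAt.comp (e' z) hd.hasFDerivAt).fderiv
    refine ContinuousLinearMap.opNorm_le_bound _ zero_le_one fun y => ?_
    rw [hfd, one_mul]
    refine (le_of_eq (norm_symm_eq e e' hu hl Ae Le ?_ ?_ (fun k => ?_) y))
    · rw [hAe, hLe]; exact hjac (hz 0)
    · rw [hAe]; exact hpos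
    · rw [hAe, hLe]
      exact le_antisymm (gam_le_of_mem e e' u l I (transfer_both e e' u l I k).1 (hA (k + 1))
          (hz (k + 1)))
        (gam_le_of_mem e' e u l I.symm (transfer_both e e' u l I k).2 (hz (k + 1)) (hA (k + 1)))
  refine ⟨G₀, hG₀.continuous, ?_, fun y hy => ?_⟩
  · borelize F
    let μ : Measure F := (volume : Measure (ι → ℝ)).map e'
    haveI : μ.IsAddHaarMeasure := ContinuousLinearEquiv.isAddHaarMeasure_map e' volume
    have h : ∀ᵐ w ∂μ, w ∈ ball (0 : F) 1 → ‖fderiv ℝ G₀ w‖ ≤ 1 := by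
      rw [ae_map_iff e'.continuous.aemeasurable]
      · filter_upwards [ae_of_ae_pm e' hiso] with z hz hzb
        exact hz (ball_subset_closedBall (α := F) hzb)
      · have h1 : MeasurableSet {w : F | ‖fderiv ℝ G₀ w‖ ≤ 1} := by
          borelize (F →L[ℝ] E)
          exact measurableSet_le ((measurable_fderiv ℝ G₀).norm) measurable_const
        exact isOpen_ball.measurableSet.imp h1
    intro a ha b hb'
    have hopen : ∀ a ∈ ball (0 : F) 1, ∀ b ∈ ball (0 : F) 1, ‖G₀ a - G₀ b‖ ≤ ‖a - b‖ :=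
      fun a ha b hb' => norm_sub_le_of_ae_fderiv μ hG₀ isOpen_ball (convex_ball _ _) h ha hb'
    have hclosed : IsClosed {p : F × F | ‖G₀ p.1 - G₀ p.2‖ ≤ ‖p.1 - p.2‖} :=
      isClosed_le (by have := hG₀.continuous; fun_prop) (by fun_prop)
    have hsub : ball (0 : F) 1 ×ˢ ball (0 : F) 1 ⊆ {p : F × F | ‖G₀ p.1 - G₀ p.2‖ ≤ ‖p.1 - p.2‖} :=
      fun p hp => hopen _ hp.1 _ hp.2
    have := closure_minimal hsub hclosed
    rw [closure_prod_eq, closure_ball _ one_ne_zero] at this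
    exact this (mk_mem_prod ha hb')
  · have h := hb (I.S y) (by rw [I.norm_S, hy])
    rw [I.right_inv] at h
    simp only [G₀, h]
    exact Ae.symm_apply_apply _

end Vale.Agent.P084.FD
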