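import Mathlib

/-! Homogeneous extension of a surjective isometry between unit spheres. -/

namespace Vale.Agent.P084.FD

open Metric Set

variable {E F : Type*} [NormedAddCommGroup E] [NormedSpace ℝ E]
  [NormedAddCommGroup F] [NormedSpace ℝ F]

/-- Norm preserving, positively homogeneous bijection which is isometric on the unit sphere. -/
structure SIso (E F : Type*) [NormedAddCommGroup E] [NormedSpace ℝ E]
    [NormedAddCommGroup F] [NormedSpace ℝ F] where
  T : E → F
  S : F → E
  left_inv : ∀ x, S (T x) = x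
  right_inv : ∀ y, T (S y) = y
  norm_T : ∀ x, ‖T x‖ = ‖x‖
  smul_T : ∀ (c : ℝ) x, 0 ≤ c → T (c • x) = c • T x
  dist_T : ∀ a b, ‖a‖ = ‖b‖ → ‖T a - T b‖ = ‖a - b‖

namespace SIso

variable (I : SIso E F)

theorem norm_S (y : F) : ‖I.S y‖ = ‖y‖ := by rw [← I.norm_T, I.right_inv]

theorem T_zero : I.T 0 = 0 := norm_eq_zero.1 (by rw [I.norm_T, norm_zero])

/-- The inverse. -/
def symm : SIso F E where
  T := I.S
  S := I.T
  left_inv := I.right_inv
  right_inv := I.left_inv
  norm_T := I.norm_S
  smul_T c y hc := by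
    conv_lhs => rw [← I.right_inv y, ← I.smul_T c _ hc, I.left_inv]
  dist_T a b h := by
    have h' : ‖I.S a‖ = ‖I.S b‖ := by rw [I.norm_S, I.norm_S, h]
    have := I.dist_T _ _ h'
    rw [I.right_inv, I.right_inv] at this
    exact this.symm

theorem lipschitz : LipschitzWith 3 I.T := by
  refine LipschitzWith.of_dist_le_mul fun x y => ?_
  simp only [dist_eq_norm]
  change ‖I.T x - I.T y‖ ≤ 3 * ‖x - y‖
  rcases eq_or_ne x 0 with rfl | hx
  · rw [I.T_zero, zero_sub, zero_sub, norm_neg, norm_neg, I.norm_T]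
    linarith [norm_nonneg y]
  have hxn := norm_pos_iff.2 hx
  set c := ‖y‖ / ‖x‖ with hc
  have hc0 : 0 ≤ c := by positivity
  have hcx : ‖c • x‖ = ‖y‖ := by
    rw [norm_smul, Real.norm_of_nonneg hc0, hc]; field_simp
  have h1 : ‖(1 - c) • x‖ = |‖x‖ - ‖y‖| := by
    rw [norm_smul, Real.norm_eq_abs, hc, ← abs_of_pos hxn, ← abs_mul, abs_of_pos hxn]
    congr 1; field_simp
  have h2 : I.T x - I.T y = (1 - c) • I.T x + (I.T (c • x) - I.T y) := by
    rw [I.smul_T c x hc0]; module
  have h3 : ‖c • x - y‖ ≤ ‖x - y‖ + ‖(1 - c) • x‖ := by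
    have : c • x - y = (x - y) - (1 - c) • x := by module
    rw [this]; exact norm_sub_le _ _
  have h4 := abs_norm_sub_norm_le x y
  rw [h2]
  refine (norm_add_le _ _).trans ?_
  have h5 : ‖(1 - c) • I.T x‖ = ‖(1 - c) • x‖ := by rw [norm_smul, norm_smul, I.norm_T]
  rw [I.dist_T _ _ hcx, h5, h1]
  rw [h1] at h3
  linarith

theorem continuous : Continuous I.T := I.lipschitz.continuous

theorem finiteDimensional [FiniteDimensional ℝ E] (I : SIso E F) : FiniteDimensional ℝ F := by
  have h : I.T '' closedBall (0 : E) 1 = closedBall (0 : F) 1 := by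
    ext y
    constructor
    · rintro ⟨x, hx, rfl⟩
      simpa [I.norm_T] using hx
    · intro hy
      exact ⟨I.S y, by simpa [I.norm_S] using hy, I.right_inv y⟩
  refine FiniteDimensional.of_isCompact_closedBall ℝ one_pos (c := (0 : F)) ?_
  rw [← h]
  exact (isCompact_closedBall _ _).image I.continuous

open MeasureTheory in
theorem finrank_le [FiniteDimensional ℝ E] [FiniteDimensional ℝ F] (I : SIso E F) :
    Module.finrank ℝ F ≤ Module.finrank ℝ E := by
  have h := I.lipschitz.dimH_range_le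
  rw [Function.Surjective.range_eq fun y => ⟨I.S y, I.right_inv y⟩,
    Real.dimH_univ_eq_finrank, Real.dimH_univ_eq_finrank] at h
  exact_mod_cast h

theorem finrank_eq [FiniteDimensional ℝ E] [FiniteDimensional ℝ F] (I : SIso E F) :
    Module.finrank ℝ E = Module.finrank ℝ F :=
  le_antisymm I.symm.finrank_le I.finrank_le

end SIso

section Make

variable (f : sphere (0 : E) 1 → sphere (0 : F) 1) (hf : Isometry f) (hs : Function.Surjective f)

open Classical in
/-- Positively homogeneous extension. -/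
noncomputable def hext (z : E) : F :=
  if h : z = 0 then 0 else ‖z‖ • (f ⟨‖z‖⁻¹ • z, by simpa using (norm_smul_inv_norm (𝕜 := ℝ) h)⟩ : F)

theorem hext_zero : hext f 0 = 0 := by simp [hext]

theorem hext_smul_sphere (x : sphere (0 : E) 1) {c : ℝ} (hc : 0 ≤ c) :
    hext f (c • (x : E)) = c • (f x : F) := by
  rcases hc.eq_or_lt with rfl | hc
  · simp [hext]
  have hx : (x : E) ≠ 0 := ne_zero_of_mem_unit_sphere x
  have hn : ‖c • (x : E)‖ = c := by
    rw [norm_smul, norm_eq_of_mem_sphere x, Real.norm_of_nonneg hc.le, mul_one]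
  rw [hext, dif_neg (smul_ne_zero hc.ne' hx)]
  simp only [hn]
  congr 3
  exact Subtype.ext (by simp [smul_smul, inv_mul_cancel₀ hc.ne'])

theorem exists_polar (z : E) (hz : z ≠ 0) : ∃ x : sphere (0 : E) 1, z = ‖z‖ • (x : E) :=
  ⟨⟨‖z‖⁻¹ • z, by simpa using (norm_smul_inv_norm (𝕜 := ℝ) hz)⟩, by
    simp [smul_smul, mul_inv_cancel₀ (norm_ne_zero_iff.2 hz)]⟩

theorem hext_norm (z : E) : ‖hext f z‖ = ‖z‖ := by
  rcases eq_or_ne z 0 with rfl | hz
  · simp [hext]
  obtain ⟨x, hx⟩ := exists_polar z hz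
  conv_lhs => rw [hx]
  rw [hext_smul_sphere f x (norm_nonneg z), norm_smul, norm_eq_of_mem_sphere (f x), mul_one,
    norm_norm]

theorem hext_smul (c : ℝ) (z : E) (hc : 0 ≤ c) : hext f (c • z) = c • hext f z := by
  rcases eq_or_ne z 0 with rfl | hz
  · simp [hext]
  obtain ⟨x, hx⟩ := exists_polar z hz
  rw [hx, smul_smul, hext_smul_sphere f x (by positivity),
    hext_smul_sphere f x (norm_nonneg z), smul_smul]

include hf hs

theorem hext_bijective : Function.Bijective (hext f) := by
  constructor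
  · intro z w h
    have hn : ‖z‖ = ‖w‖ := by rw [← hext_norm f z, h, hext_norm f w]
    rcases eq_or_ne z 0 with rfl | hz
    · rw [norm_zero] at hn; exact (norm_eq_zero.1 hn.symm).symm
    have hw : w ≠ 0 := by intro h0; rw [h0, norm_zero] at hn; exact hz (norm_eq_zero.1 hn)
    obtain ⟨x, hx⟩ := exists_polar z hz
    obtain ⟨y, hy⟩ := exists_polar w hw
    rw [hx, hy, hext_smul_sphere f x (norm_nonneg z), hext_smul_sphere f y (norm_nonneg w),
      hn] at h
    have := smul_right_injective F (norm_ne_zero_iff.2 hw) h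
    rw [hx, hy, hn, hf.injective (Subtype.ext this)]
  · intro w
    rcases eq_or_ne w 0 with rfl | hw
    · exact ⟨0, hext_zero f⟩
    obtain ⟨x, hx⟩ := hs ⟨‖w‖⁻¹ • w, by simpa using (norm_smul_inv_norm (𝕜 := ℝ) hw)⟩
    refine ⟨‖w‖ • (x : E), ?_⟩
    rw [hext_smul_sphere f x (norm_nonneg w), hx]
    simp [smul_smul, mul_inv_cancel₀ (norm_ne_zero_iff.2 hw)]

/-- The sphere isometry as an `SIso`. -/
noncomputable def toSIso : SIso E F where
  T := hext f
  S := Function.surjInv (hext_bijective f hf hs).2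
  left_inv := Function.leftInverse_surjInv (hext_bijective f hf hs)
  right_inv := Function.rightInverse_surjInv (hext_bijective f hf hs).2
  norm_T := hext_norm f
  smul_T := hext_smul f
  dist_T a b h := by
    rcases eq_or_ne a 0 with rfl | ha
    · rw [norm_zero] at h
      rw [norm_eq_zero.1 h.symm]; simp [hext]
    have hb : b ≠ 0 := by intro h0; rw [h0, norm_zero] at h; exact ha (norm_eq_zero.1 h)
    obtain ⟨x, hx⟩ := exists_polar a ha
    obtain ⟨y, hy⟩ := exists_polar b hb
    rw [hx, hy, hext_smul_sphere f x (norm_nonneg a), hext_smul_sphere f y (norm_nonneg b),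
      h, ← smul_sub, ← smul_sub, norm_smul, norm_smul]
    congr 1
    have := hf.dist_eq x y
    rw [Subtype.dist_eq, Subtype.dist_eq, dist_eq_norm, dist_eq_norm] at this
    exact this

end Make

end Vale.Agent.P084.FD
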