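import Mathlib

/-! Normalised Jacobians of linear maps into a coordinate space, and their maximisers. -/

namespace Vale.Agent.P084.FD

open Metric Set MeasureTheory Filter Topology
open scoped NNReal ENNReal

variable {ι : Type*} [Fintype ι]
variable {E : Type*} [NormedAddCommGroup E] [NormedSpace ℝ E]
variable (e : (ι → ℝ) ≃L[ℝ] E)

/-- The unit ball in coordinates. -/
def cball : Set (ι → ℝ) := e ⁻¹' closedBall (0 : E) 1

theorem isCompact_cball : IsCompact (cball e) := by
  haveI : FiniteDimensional ℝ E := e.toLinearEquiv.finiteDimensional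
  exact e.toHomeomorph.isCompact_preimage.2 (isCompact_closedBall _ _)

theorem volume_cball_pos : 0 < volume (cball e) := by
  refine lt_of_lt_of_le ?_ (measure_mono (preimage_mono ball_subset_closedBall))
  exact (isOpen_ball.preimage e.continuous).measure_pos volume ⟨0, by simp⟩

theorem volume_cball_ne_top : volume (cball e) ≠ ∞ := (isCompact_cball e).measure_lt_top.ne

/-- Volume of the image of the unit ball. -/
noncomputable def jac (A : E →L[ℝ] (ι → ℝ)) : ℝ :=
  |(A.comp (e : (ι → ℝ) →L[ℝ] E)).det| * (volume (cball e)).toReal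

theorem jac_nonneg (A : E →L[ℝ] (ι → ℝ)) : 0 ≤ jac e A := by unfold jac; positivity

theorem continuous_jac : Continuous (jac e) := by
  refine Continuous.mul (Continuous.abs ?_) continuous_const
  exact ContinuousLinearMap.continuous_det.comp
    ((ContinuousLinearMap.compL ℝ (ι → ℝ) E (ι → ℝ)).flip (e : (ι → ℝ) →L[ℝ] E)).continuous

theorem volume_image_closedBall (A : E →L[ℝ] (ι → ℝ)) :
    volume (A '' closedBall (0 : E) 1) = ENNReal.ofReal (jac e A) := by
  have h : A '' closedBall (0 : E) 1 = (A.comp (e : (ι → ℝ) →L[ℝ] E)) '' cball e := by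
    conv_rhs => rw [ContinuousLinearMap.coe_comp', image_comp]
    congr 1
    exact (image_preimage_eq _ e.surjective).symm
  rw [h, Measure.addHaar_image_continuousLinearMap, jac, ENNReal.ofReal_mul (abs_nonneg _),
    ENNReal.ofReal_toReal (volume_cball_ne_top e)]

/-- The rank one modification used to test a direction. -/
noncomputable def modA (u : ι → ℝ) (l : StrongDual ℝ (ι → ℝ)) (A : E →L[ℝ] (ι → ℝ))
    (q : StrongDual ℝ E) : E →L[ℝ] (ι → ℝ) :=
  A + (q - l.comp A).smulRight u

@[simp] theorem modA_apply (u : ι → ℝ) (l : StrongDual ℝ (ι → ℝ)) (A : E →L[ℝ] (ι → ℝ))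
    (q : StrongDual ℝ E) (x : E) : modA u l A q x = A x + (q x - l (A x)) • u := by
  simp [modA]

theorem continuous_modA (u : ι → ℝ) (l : StrongDual ℝ (ι → ℝ)) :
    Continuous fun p : (E →L[ℝ] (ι → ℝ)) × StrongDual ℝ E => modA u l p.1 p.2 := by
  have h : Continuous fun c : StrongDual ℝ E => c.smulRight u :=
    ((ContinuousLinearMap.smulRightL ℝ E (ι → ℝ)).flip u).continuous
  have h2 : Continuous fun p : (E →L[ℝ] (ι → ℝ)) × StrongDual ℝ E => l.comp p.1 :=
    (ContinuousLinearMap.compL ℝ E (ι → ℝ) ℝ l).continuous.comp continuous_fst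
  exact continuous_fst.add (h.comp (continuous_snd.sub h2))

/-- Largest volume of a modified image: a multiple of the norm of the preimage of `u`. -/
noncomputable def gam (u : ι → ℝ) (l : StrongDual ℝ (ι → ℝ)) (A : E →L[ℝ] (ι → ℝ)) : ℝ :=
  sSup ((fun q => jac e (modA u l A q)) '' closedBall (0 : StrongDual ℝ E) 1)

variable [FiniteDimensional ℝ E]

theorem continuous_gam (u : ι → ℝ) (l : StrongDual ℝ (ι → ℝ)) : Continuous (gam e u l) :=
  (isCompact_closedBall _ _).continuous_sSup
    (f := fun A q => jac e (modA u l A q)) ((continuous_jac e).comp (continuous_modA u l))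

theorem jac_modA_le_gam (u : ι → ℝ) (l : StrongDual ℝ (ι → ℝ)) (A : E →L[ℝ] (ι → ℝ))
    {q : StrongDual ℝ E} (hq : ‖q‖ ≤ 1) : jac e (modA u l A q) ≤ gam e u l A := by
  refine le_csSup ?_ (mem_image_of_mem _ (by simpa using hq))
  exact ((isCompact_closedBall _ _).image
    ((continuous_jac e).comp ((continuous_modA u l).comp (Continuous.prodMk_right A)))).bddAbove

theorem exists_gam_eq (u : ι → ℝ) (l : StrongDual ℝ (ι → ℝ)) (A : E →L[ℝ] (ι → ℝ)) :
    ∃ q : StrongDual ℝ E, ‖q‖ ≤ 1 ∧ gam e u l A = jac e (modA u l A q) := by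
  obtain ⟨q, hq, h, -⟩ := (isCompact_closedBall (0 : StrongDual ℝ E) 1).exists_sSup_image_eq_and_ge
    ⟨0, by simp⟩
    (((continuous_jac e).comp ((continuous_modA u l).comp (Continuous.prodMk_right A))).continuousOn)
  exact ⟨q, by simpa using hq, h⟩

theorem gam_nonneg (u : ι → ℝ) (l : StrongDual ℝ (ι → ℝ)) (A : E →L[ℝ] (ι → ℝ)) :
    0 ≤ gam e u l A :=
  (jac_nonneg e _).trans (jac_modA_le_gam e u l A (q := 0) (by simp))

omit [Fintype ι] in
theorem det_one_add_smulRight [Fintype ι] (φ : StrongDual ℝ (ι → ℝ)) (u : ι → ℝ) :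
    (ContinuousLinearMap.id ℝ (ι → ℝ) + φ.smulRight u).det = 1 + φ u := by
  classical
  have h : (ContinuousLinearMap.id ℝ (ι → ℝ) + φ.smulRight u).toLinearMap.toMatrix' =
      1 + Matrix.replicateCol Unit u *
        Matrix.replicateRow Unit (fun j => φ (Pi.single j 1)) := by
    ext i j
    simp [LinearMap.toMatrix'_apply, Matrix.mul_apply, Matrix.one_apply, Pi.single_apply,
      mul_comm]
  rw [ContinuousLinearMap.det, ← LinearMap.det_toMatrix', h,
    Matrix.det_one_add_replicateCol_mul_replicateRow]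
  congr 1
  conv_rhs => rw [pi_eq_sum_univ' u, map_sum]
  simp [dotProduct, mul_comm]

/-- On nondegenerate maps `gam` computes the norm of the preimage. -/
theorem gam_eq_norm {u : ι → ℝ} {l : StrongDual ℝ (ι → ℝ)} (hl : l u = 1)
    {A : E →L[ℝ] (ι → ℝ)} {x : E} (hA : Function.Injective A) (hx : A x = u) :
    gam e u l A = ‖x‖ * jac e A := by
  have hr : Module.finrank ℝ E = Module.finrank ℝ (ι → ℝ) :=
    e.symm.toLinearEquiv.finrank_eq
  let Ae : E ≃L[ℝ] (ι → ℝ) :=
    (LinearEquiv.ofBijective A.toLinearMap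
      ⟨hA, (LinearMap.injective_iff_surjective_of_finrank_eq_finrank hr).1 hA⟩).toContinuousLinearEquiv
  have hAe : ∀ y, Ae y = A y := fun y => rfl
  have hxe : Ae.symm u = x := by rw [Ae.symm_apply_eq, hAe, hx]
  have key : ∀ q : StrongDual ℝ E, jac e (modA u l A q) = |q x| * jac e A := by
    intro q
    have h : (modA u l A q).comp (e : (ι → ℝ) →L[ℝ] E) =
        (ContinuousLinearMap.id ℝ (ι → ℝ) +
          (q.comp (Ae.symm : (ι → ℝ) →L[ℝ] E) - l).smulRight u).comp
        (A.comp (e : (ι → ℝ) →L[ℝ] E)) := by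
      refine ContinuousLinearMap.ext fun v => ?_
      simp [← hAe]
    rw [jac, jac, h, ContinuousLinearMap.det, ContinuousLinearMap.toLinearMap_comp,
      LinearMap.det_comp, abs_mul, mul_assoc]
    congr 2
    have := det_one_add_smulRight (q.comp (Ae.symm : (ι → ℝ) →L[ℝ] E) - l) u
    rw [ContinuousLinearMap.det] at this
    rw [this]
    simp [hxe, hl]
  refine le_antisymm ?_ ?_
  · obtain ⟨q, hq, h⟩ := exists_gam_eq e u l A
    rw [h, key]
    refine mul_le_mul_of_nonneg_right ?_ (jac_nonneg e A)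
    calc |q x| ≤ ‖q‖ * ‖x‖ := q.le_opNorm x
      _ ≤ 1 * ‖x‖ := mul_le_mul_of_nonneg_right hq (norm_nonneg x)
      _ = ‖x‖ := one_mul _
  · obtain ⟨q, hq, h⟩ := exists_dual_vector'' ℝ x
    refine le_trans ?_ (jac_modA_le_gam e u l A hq)
    rw [key, h]
    simp

/-- Nested sets of maximisers: first of the volume, then of the tests. -/
noncomputable def maxSet (u : ℕ → ι → ℝ) (l : ℕ → StrongDual ℝ (ι → ℝ)) :
    ℕ → Set (E →L[ℝ] (ι → ℝ))
  | 0 => {A | ‖A‖ ≤ 1 ∧ ∀ B : E →L[ℝ] (ι → ℝ), ‖B‖ ≤ 1 → jac e B ≤ jac e A}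
  | k + 1 => {A | A ∈ maxSet u l k ∧
      ∀ B ∈ maxSet u l k, gam e (u k) (l k) B ≤ gam e (u k) (l k) A}

variable (u : ℕ → ι → ℝ) (l : ℕ → StrongDual ℝ (ι → ℝ))

theorem maxSet_nonempty_isCompact :
    ∀ k, (maxSet e u l k).Nonempty ∧ IsCompact (maxSet e u l k)
  | 0 => by
    have hK : IsCompact (closedBall (0 : E →L[ℝ] (ι → ℝ)) 1) := isCompact_closedBall _ _
    obtain ⟨A, hA, hmax⟩ := hK.exists_isMaxOn ⟨0, by simp⟩ (continuous_jac e).continuousOn
    refine ⟨⟨A, by simpa using hA, fun B hB => hmax (by simpa using hB)⟩, ?_⟩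
    refine hK.of_isClosed_subset ?_ fun B hB => by simpa using hB.1
    simp only [maxSet, setOf_and, setOf_forall]
    refine (isClosed_le continuous_norm continuous_const).inter ?_
    exact isClosed_iInter fun B => isClosed_iInter fun _ =>
      isClosed_le continuous_const (continuous_jac e)
  | k + 1 => by
    obtain ⟨hne, hK⟩ := maxSet_nonempty_isCompact k
    obtain ⟨A, hA, hmax⟩ := hK.exists_isMaxOn hne (continuous_gam e (u k) (l k)).continuousOn
    refine ⟨⟨A, hA, fun B hB => hmax hB⟩, ?_⟩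
    simp only [maxSet, setOf_and, setOf_forall]
    refine hK.inter_right ?_
    exact isClosed_iInter fun B => isClosed_iInter fun _ =>
      isClosed_le continuous_const (continuous_gam e (u k) (l k))

theorem maxSet_antitone : Antitone (maxSet e u l) :=
  antitone_nat_of_succ_le fun _ _ hA => hA.1

theorem exists_mem_all : ∃ A, ∀ k, A ∈ maxSet e u l k := by
  obtain ⟨A, hA⟩ := IsCompact.nonempty_iInter_of_sequence_nonempty_isCompact_isClosed
    (fun k => maxSet e u l k) (fun k => maxSet_antitone e u l (Nat.le_succ k))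
    (fun k => (maxSet_nonempty_isCompact e u l k).1) (maxSet_nonempty_isCompact e u l 0).2
    (fun k => (maxSet_nonempty_isCompact e u l k).2.isClosed)
  exact ⟨A, fun k => mem_iInter.1 hA k⟩

theorem jac_pos_of_mem {A : E →L[ℝ] (ι → ℝ)} (hA : A ∈ maxSet e u l 0) : 0 < jac e A := by
  let B : E →L[ℝ] (ι → ℝ) := (e.symm : E →L[ℝ] (ι → ℝ))
  have hB : 0 < (‖B‖ + 1)⁻¹ := by positivity
  refine lt_of_lt_of_le ?_ (hA.2 ((‖B‖ + 1)⁻¹ • B) ?_)
  · have h : ((‖B‖ + 1)⁻¹ • B).comp (e : (ι → ℝ) →L[ℝ] E) =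
        (‖B‖ + 1)⁻¹ • ContinuousLinearMap.id ℝ (ι → ℝ) := by
      ext v i; simp [B]
    rw [jac, h]
    refine mul_pos ?_ (ENNReal.toReal_pos (volume_cball_pos e).ne' (volume_cball_ne_top e))
    simp [ContinuousLinearMap.det]
    exact pow_pos (abs_pos.2 (by positivity)) _
  · rw [norm_smul, Real.norm_of_nonneg hB.le, inv_mul_le_one₀ (by positivity)]
    linarith [norm_nonneg B]

theorem injective_of_jac_pos {A : E →L[ℝ] (ι → ℝ)} (hA : 0 < jac e A) : Function.Injective A := by
  have h : (A.comp (e : (ι → ℝ) →L[ℝ] E)).det ≠ 0 := fun h0 => by simp [jac, h0] at hA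
  have := ((A.comp (e : (ι → ℝ) →L[ℝ] E)).toLinearMap.equivOfDetNeZero h).injective
  intro x y hxy
  have := @this (e.symm x) (e.symm y) (by simpa using hxy)
  simpa using this

end Vale.Agent.P084.FD
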