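import Vale.Agent.P084.FD.Extend
import Vale.Agent.P084.FD.Ball

/-! Tingley's problem in finite dimensions. -/

namespace Vale.Agent.P084.FD

open Metric Set

variable {E F : Type*} [NormedAddCommGroup E] [NormedSpace ℝ E] [FiniteDimensional ℝ E]
  [NormedAddCommGroup F] [NormedSpace ℝ F] [FiniteDimensional ℝ F]

theorem norm_le_one_of_ext [Nontrivial E] (I : SIso E F) {G : E → F}
    (hG : ∀ a ∈ closedBall (0 : E) 1, ∀ b ∈ closedBall (0 : E) 1, ‖G a - G b‖ ≤ ‖a - b‖)
    (hS : ∀ x, ‖x‖ = 1 → G x = I.T x) {z : E} (hz : ‖z‖ ≤ 1) : ‖G z‖ ≤ 1 := by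
  by_contra! h
  have hpos : 0 < ‖G z‖ := lt_trans one_pos h
  set y := -(‖G z‖⁻¹ • G z) with hy
  have hyn : ‖y‖ = 1 := by
    rw [hy, norm_neg, norm_smul, norm_inv, norm_norm, inv_mul_cancel₀ hpos.ne']
  have hx : ‖I.S y‖ = 1 := by rw [I.norm_S, hyn]
  have := hG z (by simpa using hz) (I.S y) (by simp [hx])
  rw [hS _ hx, I.right_inv, hy, show G z - -(‖G z‖⁻¹ • G z) = (1 + ‖G z‖⁻¹) • G z by module,
    norm_smul, Real.norm_of_nonneg (by positivity), add_mul, one_mul,
    inv_mul_cancel₀ hpos.ne'] at this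
  have h2 := norm_sub_le z (I.S y)
  linarith

theorem zero_of_ext [Nontrivial E] (I : SIso E F) {G : E → F}
    (hG : ∀ a ∈ closedBall (0 : E) 1, ∀ b ∈ closedBall (0 : E) 1, ‖G a - G b‖ ≤ ‖a - b‖)
    (hS : ∀ x, ‖x‖ = 1 → G x = I.T x) : G 0 = 0 := by
  by_contra h
  have hpos : 0 < ‖G 0‖ := norm_pos_iff.2 h
  set y := -(‖G 0‖⁻¹ • G 0) with hy
  have hyn : ‖y‖ = 1 := by
    rw [hy, norm_neg, norm_smul, norm_inv, norm_norm, inv_mul_cancel₀ hpos.ne']
  have hx : ‖I.S y‖ = 1 := by rw [I.norm_S, hyn]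
  have := hG 0 (by simp) (I.S y) (by simp [hx])
  rw [zero_sub, norm_neg, hx, hS _ hx, I.right_inv, hy,
    show G 0 - -(‖G 0‖⁻¹ • G 0) = (1 + ‖G 0‖⁻¹) • G 0 by module,
    norm_smul, Real.norm_of_nonneg (by positivity), add_mul, one_mul,
    inv_mul_cancel₀ hpos.ne'] at this
  linarith

theorem exists_linear [Nontrivial E] (I : SIso E F) :
    ∃ T : E ≃ₗᵢ[ℝ] F, ∀ x, ‖x‖ = 1 → T x = I.T x := by
  haveI : Nonempty (Fin (Module.finrank ℝ E)) := ⟨⟨0, Module.finrank_pos⟩⟩
  let e : (Fin (Module.finrank ℝ E) → ℝ) ≃L[ℝ] E :=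
    (ContinuousLinearEquiv.ofFinrankEq (by simp)).symm
  let e' : (Fin (Module.finrank ℝ E) → ℝ) ≃L[ℝ] F :=
    ContinuousLinearEquiv.ofFinrankEq (by simp [I.finrank_eq])
  haveI : Nontrivial F := e'.toEquiv.symm.nontrivial
  obtain ⟨G, -, hG, hGS⟩ := exists_lipschitz_extension e e' I
  obtain ⟨H, -, hH, hHS⟩ := exists_lipschitz_extension e' e I.symm
  have hGm : ∀ z, ‖z‖ ≤ 1 → ‖G z‖ ≤ 1 := fun z hz => norm_le_one_of_ext I.symm hG hGS hz
  have hHm : ∀ z, ‖z‖ ≤ 1 → ‖H z‖ ≤ 1 := fun z hz => norm_le_one_of_ext I hH hHS hz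
  have hGH : ∀ x, ‖x‖ ≤ 1 → G (H x) = x := by
    refine fun x hx => eq_self_of_fix_sphere (ρ := fun x => G (H x)) ?_ ?_ hx
    · intro a ha b hb
      rw [mem_closedBall_zero_iff] at ha hb
      exact (hG _ (by simpa using hHm a ha) _ (by simpa using hHm b hb)).trans
        (hH a (by simpa using ha) b (by simpa using hb))
    · intro y hy
      rw [hHS y hy]
      show G (I.T y) = y
      rw [hGS _ (by rw [I.norm_T, hy]), I.left_inv]
  have hHG : ∀ x, ‖x‖ ≤ 1 → H (G x) = x := by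
    refine fun x hx => eq_self_of_fix_sphere (ρ := fun x => H (G x)) ?_ ?_ hx
    · intro a ha b hb
      rw [mem_closedBall_zero_iff] at ha hb
      exact (hH _ (by simpa using hGm a ha) _ (by simpa using hGm b hb)).trans
        (hG a (by simpa using ha) b (by simpa using hb))
    · intro y hy
      rw [hGS y hy]
      show H (I.S y) = y
      rw [hHS _ (by rw [I.norm_S, hy])]
      exact I.right_inv y
  have hdH : ∀ a b, ‖a‖ ≤ 1 → ‖b‖ ≤ 1 → ‖H a - H b‖ = ‖a - b‖ := fun a b ha hb => by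
    refine le_antisymm (hH a (by simpa using ha) b (by simpa using hb)) ?_
    conv_lhs => rw [← hGH a ha, ← hGH b hb]
    exact hG _ (by simpa using hHm a ha) _ (by simpa using hHm b hb)
  have hdG : ∀ a b, ‖a‖ ≤ 1 → ‖b‖ ≤ 1 → ‖G a - G b‖ = ‖a - b‖ := fun a b ha hb => by
    refine le_antisymm (hG a (by simpa using ha) b (by simpa using hb)) ?_
    conv_lhs => rw [← hHG a ha, ← hHG b hb]
    exact hH _ (by simpa using hGm a ha) _ (by simpa using hGm b hb)
  let J : BallIso E F :=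
    { φ := H
      ψ := G
      mem := fun x hx => by
        simpa [zero_of_ext I hH hHS] using hdH x 0 hx (by simp)
      mem' := fun y hy => by
        simpa [zero_of_ext I.symm hG hGS] using hdG y 0 hy (by simp)
      dist_φ := hdH
      dist_ψ := hdG
      left_inv := hGH
      right_inv := hHG }
  obtain ⟨T, hT⟩ := J.exists_linear
  exact ⟨T, fun x hx => by rw [hT x hx.le]; exact hHS x hx⟩

omit [FiniteDimensional ℝ F] in
/-- Every surjective isometry between unit spheres of a finite-dimensional real normed space and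
an arbitrary real normed space extends linearly. -/
theorem tingley_finiteDimensional (f : sphere (0 : E) 1 → sphere (0 : F) 1) (hf : Isometry f)
    (hs : Function.Surjective f) :
    ∃ T : E ≃ₗᵢ[ℝ] F, ∀ x : sphere (0 : E) 1, T (x : E) = (f x : F) := by
  let I := toSIso f hf hs
  haveI : FiniteDimensional ℝ F := I.finiteDimensional
  rcases subsingleton_or_nontrivial E with hE | hE
  · have hF : ∀ y : F, y = 0 := fun y => by
      rw [← norm_eq_zero, ← I.norm_S y, Subsingleton.elim (I.S y) 0, norm_zero]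
    haveI : Subsingleton F := ⟨fun a b => by rw [hF a, hF b]⟩
    exact ⟨⟨LinearEquiv.ofSubsingleton E F, fun x => by
      rw [Subsingleton.elim x 0, map_zero, norm_zero, norm_zero]⟩,
      fun x => absurd (Subsingleton.elim (x : E) 0) (ne_zero_of_mem_unit_sphere x)⟩
  obtain ⟨T, hT⟩ := exists_linear I
  refine ⟨T, fun x => ?_⟩
  rw [hT x (norm_eq_of_mem_sphere x)]
  have h := hext_smul_sphere f x zero_le_one
  rw [one_smul, one_smul] at h
  exact h

end Vale.Agent.P084.FD
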