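import Vale.Agent.P084.FD.Iso
import Vale.Agent.P084.FD.Calc
import Vale.Agent.P084.FD.Jac

/-! Maximisers are carried to maximisers by derivatives of Lipschitz extensions. -/

namespace Vale.Agent.P084.FD

open Metric Set MeasureTheory Filter Topology
open scoped NNReal ENNReal

variable {ι : Type*} [Fintype ι] [Nonempty ι]
variable {E F : Type*} [NormedAddCommGroup E] [NormedSpace ℝ E] [FiniteDimensional ℝ E]
  [NormedAddCommGroup F] [NormedSpace ℝ F] [FiniteDimensional ℝ F]
variable (e : (ι → ℝ) ≃L[ℝ] E) (e' : (ι → ℝ) ≃L[ℝ] F)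

/-- The uniform probability measure on the coordinate ball. -/
noncomputable def pm : Measure (ι → ℝ) := (volume (cball e))⁻¹ • volume.restrict (cball e)

omit [Nonempty ι] in
theorem isProbabilityMeasure_pm : IsProbabilityMeasure (pm e) := by
  refine ⟨?_⟩
  rw [pm, Measure.smul_apply, Measure.restrict_apply_univ, smul_eq_mul]
  exact ENNReal.inv_mul_cancel (volume_cball_pos e).ne' (volume_cball_ne_top e)

omit [Nonempty ι] in
theorem ae_pm_of_ae {p : (ι → ℝ) → Prop} (h : ∀ᵐ z ∂(volume : Measure (ι → ℝ)), p z) :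
    ∀ᵐ z ∂pm e, p z :=
  Measure.ae_smul_measure (ae_restrict_of_ae h) _

omit [Nonempty ι] in
theorem ae_of_ae_pm {p : (ι → ℝ) → Prop} (h : ∀ᵐ z ∂pm e, p z) :
    ∀ᵐ z ∂(volume : Measure (ι → ℝ)), z ∈ cball e → p z := by
  rw [← ae_restrict_iff' (isCompact_cball e).measurableSet]
  exact (Measure.ae_ennreal_smul_measure_iff (ENNReal.inv_ne_zero.2 (volume_cball_ne_top e))).1 h

omit [Nonempty ι] in
theorem ae_differentiableAt_comp {Y : Type*} [NormedAddCommGroup Y] [NormedSpace ℝ Y]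
    [FiniteDimensional ℝ Y] {G : F → Y} {K : ℝ≥0} (hG : LipschitzWith K G) :
    ∀ᵐ z ∂(volume : Measure (ι → ℝ)), DifferentiableAt ℝ G (e' z) := by
  filter_upwards [(hG.comp (e' : (ι → ℝ) →L[ℝ] F).lipschitz).ae_differentiableAt (μ := volume)]
    with z hz
  exact e'.comp_right_differentiableAt_iff.1 hz

variable (I : SIso E F)

/-- The Jacobian inequality. -/
theorem jac_le_lintegral {A : E →L[ℝ] (ι → ℝ)} {G : F → ι → ℝ} {K : ℝ≥0}
    (hG : LipschitzWith K G) (hb : ∀ x, ‖x‖ = 1 → G (I.T x) = A x) :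
    ENNReal.ofReal (jac e A) ≤
      ∫⁻ z, ENNReal.ofReal (jac e' (fderiv ℝ G (e' z))) ∂pm e' := by
  by_cases hinj : Function.Injective A
  swap
  · have h : jac e A = 0 := by
      by_contra h
      exact hinj (injective_of_jac_pos e (lt_of_le_of_ne (jac_nonneg e A) (Ne.symm h)))
    rw [h, ENNReal.ofReal_zero]
    exact bot_le
  have hr : Module.finrank ℝ E = Module.finrank ℝ (ι → ℝ) :=
    e.symm.toLinearEquiv.finrank_eq
  let Ae : E ≃L[ℝ] (ι → ℝ) :=
    (LinearEquiv.ofBijective A.toLinearMap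
      ⟨hinj, (LinearMap.injective_iff_surjective_of_finrank_eq_finrank hr).1 hinj⟩)
        |>.toContinuousLinearEquiv
  have hAe : ∀ y, Ae y = A y := fun y => rfl
  haveI : Nontrivial E := e.toEquiv.symm.nontrivial
  have hcov : A '' ball (0 : E) 1 ⊆ G '' closedBall (0 : F) 1 := by
    rintro _ ⟨q, hq, rfl⟩
    obtain ⟨x, hx, hgx⟩ := exists_preimage_of_eq_id_frontier (X := E) isOpen_ball isBounded_ball
      (g := fun x => Ae.symm (G (I.T x)))
      (Ae.symm.continuous.comp (hG.continuous.comp I.continuous))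
      (fun x hx => by
        rw [frontier_ball _ one_ne_zero, mem_sphere_zero_iff_norm] at hx
        rw [hb x hx, ← hAe, Ae.symm_apply_apply]) hq
    rw [closure_ball _ one_ne_zero, mem_closedBall_zero_iff] at hx
    exact ⟨I.T x, by simpa [I.norm_T] using hx, by rw [← hAe q, ← hgx, Ae.apply_symm_apply]⟩
  have hclosed : A '' closedBall (0 : E) 1 ⊆ G '' closedBall (0 : F) 1 := by
    rw [← closure_ball (0 : E) one_ne_zero]
    refine (image_closure_subset_closure_image A.continuous).trans (closure_minimal hcov ?_)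
    exact ((isCompact_closedBall _ _).image hG.continuous).isClosed
  have hlip : LipschitzWith (K * ‖(e' : (ι → ℝ) →L[ℝ] F)‖₊) (fun z => G (e' z)) :=
    hG.comp (e' : (ι → ℝ) →L[ℝ] F).lipschitz
  have himg : G '' closedBall (0 : F) 1 = (fun z => G (e' z)) '' cball e' := by
    rw [show (fun z => G (e' z)) = G ∘ e' from rfl, image_comp, cball,
      image_preimage_eq _ e'.surjective]
  have h1 : ENNReal.ofReal (jac e A) ≤
      ∫⁻ z in cball e', ENNReal.ofReal |(fderiv ℝ (fun z => G (e' z)) z).det| := by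
    rw [← volume_image_closedBall]
    refine (measure_mono hclosed).trans ?_
    rw [himg]
    exact volume_image_le hlip (isCompact_cball e').measurableSet
  refine h1.trans (le_of_eq ?_)
  rw [pm, lintegral_smul_measure, smul_eq_mul, ← lintegral_const_mul' _ _
    (ENNReal.inv_ne_top.2 (volume_cball_pos e').ne')]
  refine lintegral_congr_ae (ae_restrict_of_ae (Eventually.of_forall fun z => ?_))
  have hfd : fderiv ℝ (fun z => G (e' z)) z =
      (fderiv ℝ G (e' z)).comp (e' : (ι → ℝ) →L[ℝ] F) := e'.comp_right_fderiv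
  simp only [jac, hfd]
  rw [mul_comm |_|, ENNReal.ofReal_mul ENNReal.toReal_nonneg,
    ENNReal.ofReal_toReal (volume_cball_ne_top e'), ← mul_assoc,
    ENNReal.inv_mul_cancel (volume_cball_pos e').ne' (volume_cball_ne_top e'), one_mul]

variable {e e'} (u : ℕ → ι → ℝ) (l : ℕ → StrongDual ℝ (ι → ℝ))

omit [Nonempty ι] [FiniteDimensional ℝ E] [FiniteDimensional ℝ F] in
theorem exists_extension {A : E →L[ℝ] (ι → ℝ)} (hA : ‖A‖ ≤ 1) (I : SIso E F) :
    ∃ G : F → ι → ℝ, LipschitzWith 1 G ∧ ∀ x, ‖x‖ = 1 → G (I.T x) = A x := by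
  have h : LipschitzOnWith 1 (fun y => A (I.S y)) (sphere (0 : F) 1) :=
    LipschitzOnWith.of_dist_le_mul fun a ha b hb => by
      rw [mem_sphere_zero_iff_norm] at ha hb
      rw [dist_eq_norm, dist_eq_norm, ← map_sub, NNReal.coe_one, one_mul]
      refine (A.le_opNorm _).trans ?_
      have hd : ‖I.S a - I.S b‖ = ‖a - b‖ := by
        have := I.dist_T (I.S a) (I.S b) (by rw [I.norm_S, I.norm_S, ha, hb])
        rwa [I.right_inv, I.right_inv, eq_comm] at this
      rw [hd]
      exact (mul_le_mul_of_nonneg_right hA (norm_nonneg _)).trans (one_mul _).le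
  obtain ⟨G, hG, heq⟩ := h.extend_pi
  refine ⟨G, hG, fun x hx => ?_⟩
  rw [← heq (by rw [mem_sphere_zero_iff_norm, I.norm_T, hx])]
  simp only [I.left_inv]

omit [Nonempty ι] [FiniteDimensional ℝ E] [FiniteDimensional ℝ F] in
theorem exists_extension_real {q : StrongDual ℝ E} (hq : ‖q‖ ≤ 1) (I : SIso E F) :
    ∃ H : F → ℝ, LipschitzWith 1 H ∧ ∀ x, ‖x‖ = 1 → H (I.T x) = q x := by
  have h : LipschitzOnWith 1 (fun y => q (I.S y)) (sphere (0 : F) 1) :=
    LipschitzOnWith.of_dist_le_mul fun a ha b hb => by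
      rw [mem_sphere_zero_iff_norm] at ha hb
      rw [dist_eq_norm, dist_eq_norm, ← map_sub, NNReal.coe_one, one_mul]
      refine (q.le_opNorm _).trans ?_
      have hd : ‖I.S a - I.S b‖ = ‖a - b‖ := by
        have := I.dist_T (I.S a) (I.S b) (by rw [I.norm_S, I.norm_S, ha, hb])
        rwa [I.right_inv, I.right_inv, eq_comm] at this
      rw [hd]
      exact (mul_le_mul_of_nonneg_right hq (norm_nonneg _)).trans (one_mul _).le
  obtain ⟨H, hH, heq⟩ := h.extend_real
  refine ⟨H, hH, fun x hx => ?_⟩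
  rw [← heq (by rw [mem_sphere_zero_iff_norm, I.norm_T, hx])]
  simp only [I.left_inv]

variable (e e')

/-- The transfer property at level `k`. -/
def Transfer (I : SIso E F) (k : ℕ) : Prop :=
  ∀ A ∈ maxSet e u l k, ∀ G : F → ι → ℝ, LipschitzWith 1 G →
    (∀ x, ‖x‖ = 1 → G (I.T x) = A x) → ∀ᵐ z ∂pm e', fderiv ℝ G (e' z) ∈ maxSet e' u l k

omit [Nonempty ι] [FiniteDimensional ℝ E] in
theorem norm_fderiv_le_one {G : F → ι → ℝ} (hG : LipschitzWith 1 G) (y : F) :
    ‖fderiv ℝ G y‖ ≤ 1 := by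
  simpa using norm_fderiv_le_of_lipschitz (x₀ := y) ℝ hG

theorem jac_le_of_mem (I : SIso E F) {A : E →L[ℝ] (ι → ℝ)} {A' : F →L[ℝ] (ι → ℝ)}
    (hA : A ∈ maxSet e u l 0) (hA' : A' ∈ maxSet e' u l 0) : jac e A ≤ jac e' A' := by
  obtain ⟨G, hG, hb⟩ := exists_extension hA.1 I
  haveI := isProbabilityMeasure_pm e'
  have h := (jac_le_lintegral e e' I hG hb).trans
    (lintegral_mono (g := fun _ => ENNReal.ofReal (jac e' A')) fun z =>
      ENNReal.ofReal_le_ofReal (hA'.2 _ (norm_fderiv_le_one hG _)))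
  rwa [lintegral_const, measure_univ, mul_one, ENNReal.ofReal_le_ofReal_iff (jac_nonneg e' A')]
    at h

omit [Nonempty ι] in
theorem aemeasurable_comp_fderiv (G : F → ι → ℝ) {φ : (F →L[ℝ] (ι → ℝ)) → ℝ}
    (hφ : Continuous φ) :
    AEMeasurable (fun z => ENNReal.ofReal (φ (fderiv ℝ G (e' z)))) (pm e') := by
  borelize (F →L[ℝ] (ι → ℝ))
  borelize F
  exact (ENNReal.measurable_ofReal.comp (hφ.measurable.comp
    ((measurable_fderiv ℝ G).comp e'.continuous.measurable))).aemeasurable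

theorem transfer_zero (I : SIso E F) : Transfer e e' u l I 0 := by
  intro A hA G hG hb
  obtain ⟨A', hA'⟩ := (maxSet_nonempty_isCompact e' u l 0).1
  haveI := isProbabilityMeasure_pm e'
  have heq : jac e A = jac e' A' :=
    le_antisymm (jac_le_of_mem e e' u l I hA hA') (jac_le_of_mem e' e u l I.symm hA' hA)
  have hle := jac_le_lintegral e e' I hG hb
  rw [heq] at hle
  have hae := ae_eq_of_ae_le_of_lintegral_le
    (μ := pm e') (f := fun z => ENNReal.ofReal (jac e' (fderiv ℝ G (e' z))))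
    (g := fun _ => ENNReal.ofReal (jac e' A'))
    (Eventually.of_forall fun z => ENNReal.ofReal_le_ofReal (hA'.2 _ (norm_fderiv_le_one hG _)))
    (ne_top_of_le_ne_top (b := ENNReal.ofReal (jac e' A')) ENNReal.ofReal_ne_top (by
      refine (lintegral_mono fun z =>
        ENNReal.ofReal_le_ofReal (hA'.2 _ (norm_fderiv_le_one hG _))).trans ?_
      rw [lintegral_const, measure_univ, mul_one]))
    aemeasurable_const (by rwa [lintegral_const, measure_univ, mul_one])
  filter_upwards [hae] with z hz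
  refine ⟨norm_fderiv_le_one hG _, fun B hB => ?_⟩
  rw [(ENNReal.ofReal_eq_ofReal_iff (jac_nonneg e' _) (jac_nonneg e' _)).1 hz]
  exact hA'.2 B hB

theorem gam_le_lintegral (I : SIso E F) {k : ℕ} {A : E →L[ℝ] (ι → ℝ)}
    {G : F → ι → ℝ} (hG : LipschitzWith 1 G) (hb : ∀ x, ‖x‖ = 1 → G (I.T x) = A x) :
    ENNReal.ofReal (gam e (u k) (l k) A) ≤
      ∫⁻ z, ENNReal.ofReal (gam e' (u k) (l k) (fderiv ℝ G (e' z))) ∂pm e' := by
  obtain ⟨q, hq, hgam⟩ := exists_gam_eq e (u k) (l k) A
  obtain ⟨H, hH, hHb⟩ := exists_extension_real hq I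
  let G' : F → ι → ℝ := fun y => G y + (H y - l k (G y)) • u k
  have hG' : ∃ K, LipschitzWith K G' := by
    refine ⟨_, hG.add ((ContinuousLinearMap.toSpanSingleton ℝ (u k)).lipschitz.comp
      (hH.sub ((l k).lipschitz.comp hG)))⟩
  obtain ⟨K, hG'⟩ := hG'
  rw [hgam]
  refine (jac_le_lintegral e e' I hG' (A := modA (u k) (l k) A q) fun x hx => ?_).trans ?_
  · simp only [G', hb x hx, hHb x hx, modA_apply]
  refine lintegral_mono_ae ?_
  filter_upwards [ae_pm_of_ae e' (ae_differentiableAt_comp e' hG),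
    ae_pm_of_ae e' (ae_differentiableAt_comp e' hH)] with z h1 h2
  have hd : fderiv ℝ G' (e' z) =
      modA (u k) (l k) (fderiv ℝ G (e' z)) (fderiv ℝ H (e' z)) :=
    (h1.hasFDerivAt.add
      ((h2.hasFDerivAt.sub ((l k).hasFDerivAt.comp (e' z) h1.hasFDerivAt)).smul_const (u k))).fderiv
  rw [hd]
  exact ENNReal.ofReal_le_ofReal
    (jac_modA_le_gam e' _ _ _ (by simpa using norm_fderiv_le_of_lipschitz (x₀ := e' z) ℝ hH))

theorem gam_le_of_mem (I : SIso E F) {k : ℕ} (hk : Transfer e e' u l I k)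
    {A : E →L[ℝ] (ι → ℝ)} {A' : F →L[ℝ] (ι → ℝ)}
    (hA : A ∈ maxSet e u l (k + 1)) (hA' : A' ∈ maxSet e' u l (k + 1)) :
    gam e (u k) (l k) A ≤ gam e' (u k) (l k) A' := by
  haveI := isProbabilityMeasure_pm e'
  obtain ⟨G, hG, hb⟩ := exists_extension (maxSet_antitone e u l (Nat.zero_le _) hA).1 I
  have h := (gam_le_lintegral e e' u l I hG hb (k := k)).trans
    (lintegral_mono_ae (g := fun _ => ENNReal.ofReal (gam e' (u k) (l k) A')) (by
      filter_upwards [hk A hA.1 G hG hb] with z hz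
      exact ENNReal.ofReal_le_ofReal (hA'.2 _ hz)))
  rwa [lintegral_const, measure_univ, mul_one, ENNReal.ofReal_le_ofReal_iff (gam_nonneg e' _ _ _)]
    at h

theorem transfer_succ (I : SIso E F) {k : ℕ} (hk : Transfer e e' u l I k)
    (hk' : Transfer e' e u l I.symm k) : Transfer e e' u l I (k + 1) := by
  intro A hA G hG hb
  obtain ⟨A', hA'⟩ := (maxSet_nonempty_isCompact e' u l (k + 1)).1
  haveI := isProbabilityMeasure_pm e'
  have heq : gam e (u k) (l k) A = gam e' (u k) (l k) A' :=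
    le_antisymm (gam_le_of_mem e e' u l I hk hA hA') (gam_le_of_mem e' e u l I.symm hk' hA' hA)
  have hle := gam_le_lintegral e e' u l I hG hb (k := k)
  rw [heq] at hle
  have hmem := hk A hA.1 G hG hb
  have hbound : (fun z => ENNReal.ofReal (gam e' (u k) (l k) (fderiv ℝ G (e' z)))) ≤ᵐ[pm e']
      fun _ => ENNReal.ofReal (gam e' (u k) (l k) A') := by
    filter_upwards [hmem] with z hz
    exact ENNReal.ofReal_le_ofReal (hA'.2 _ hz)
  have hae := ae_eq_of_ae_le_of_lintegral_le hbound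
    (ne_top_of_le_ne_top (b := ENNReal.ofReal (gam e' (u k) (l k) A')) ENNReal.ofReal_ne_top (by
      refine (lintegral_mono_ae hbound).trans ?_
      rw [lintegral_const, measure_univ, mul_one]))
    aemeasurable_const (by rwa [lintegral_const, measure_univ, mul_one])
  filter_upwards [hae, hmem] with z hz hz'
  refine ⟨hz', fun B hB => ?_⟩
  rw [(ENNReal.ofReal_eq_ofReal_iff (gam_nonneg e' _ _ _) (gam_nonneg e' _ _ _)).1 hz]
  exact hA'.2 B hB

theorem transfer_both (I : SIso E F) :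
    ∀ k, Transfer e e' u l I k ∧ Transfer e' e u l I.symm k
  | 0 => ⟨transfer_zero e e' u l I, transfer_zero e' e u l I.symm⟩
  | k + 1 => ⟨transfer_succ e e' u l I (transfer_both I k).1 (transfer_both I k).2,
      transfer_succ e' e u l I.symm (transfer_both I k).2 (transfer_both I k).1⟩

end Vale.Agent.P084.FD
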